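import Vale.Agent.P181.TRT.Defs
import Vale.Agent.P181.SZR5.Minor
import Vale.Agent.P181.H463.Exists

set_option autoImplicit false

/-!
# P181, TRT: (TR7), the tableaux give highest weight polynomials
-/

open MvPolynomial

namespace Vale.Agent.P181.TRT.H421

open Vale.Agent.P181.T4 (HW)
open Vale.Agent.P181.H463 (gt rows mnr prodM exists_li)
open Vale.Agent.P181.SZR5 (minor minor_HW rw' HW_one HW_prod)

/-- A minor of the first `ℓ` rows, `ℓ = 0` included. -/
lemma mnr_mem {m N l : ℕ} (h : l ≤ m) (u : Fin l → Fin N) :
    mnr ℂ h u ∈ HW m (Fin N) (fun i => if (i : ℕ) < l then 1 else 0) := by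
  cases l with
  | zero =>
    have h1 : mnr ℂ h u = 1 := by
      rw [mnr]
      exact Matrix.det_isEmpty
    have h2 : (fun i : Fin m => if (i : ℕ) < 0 then 1 else 0) = (0 : Fin m → ℕ) := by
      funext i
      simp
    rw [h1, h2]
    exact HW_one
  | succ r =>
    have h1 : mnr ℂ h u = minor (Nat.lt_of_succ_le h) u := rfl
    have h2 : (fun i : Fin m => if (i : ℕ) < r + 1 then 1 else 0) =
        fun i : Fin m => if (i : ℕ) ≤ r then 1 else 0 := by
      funext i
      simp only [Nat.lt_succ_iff]
    rw [h1, h2]
    exact minor_HW _ u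

/-- The conjugate shape. -/
lemma exists_conj {m : ℕ} (mu : Fin m → ℕ) (hmu : Antitone mu) :
    ∃ (K : ℕ) (l : Fin K → ℕ), (∀ c, l c ≤ m) ∧ rows m l = mu := by
  classical
  refine ⟨∑ i, mu i, fun c => (Finset.univ.filter fun i => (c : ℕ) < mu i).card, fun c => ?_, ?_⟩
  · refine (Finset.card_le_univ _).trans ?_
    rw [Fintype.card_fin]
  · funext i
    have key : ∀ c : Fin (∑ i, mu i),
        ((i : ℕ) < (Finset.univ.filter fun i' => (c : ℕ) < mu i').card) ↔ (c : ℕ) < mu i := by
      intro c
      constructor
      · intro h
        by_contra hno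
        have h1 : (Finset.univ.filter fun i' => (c : ℕ) < mu i') ⊆ Finset.univ.filter
            fun i' : Fin m => i' < i := by
          intro x hx
          rw [Finset.mem_filter] at hx ⊢
          refine ⟨Finset.mem_univ _, ?_⟩
          by_contra hx2
          have := hmu (not_lt.1 hx2)
          exact hno (lt_of_lt_of_le hx.2 this)
        have h2 := Finset.card_le_card h1
        have h3 : (Finset.univ.filter fun i' : Fin m => i' < i).card = i := by
          rw [← Fin.card_Iio i]
          congr 1
          ext x
          simp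
        omega
      · intro h
        have h1 : (Finset.univ.filter fun i' : Fin m => i' ≤ i) ⊆
            Finset.univ.filter fun i' => (c : ℕ) < mu i' := by
          intro x hx
          rw [Finset.mem_filter] at hx ⊢
          exact ⟨Finset.mem_univ _, lt_of_lt_of_le h (hmu hx.2)⟩
        have h2 := Finset.card_le_card h1
        have h3 : (Finset.univ.filter fun i' : Fin m => i' ≤ i).card = i + 1 := by
          rw [← Fin.card_Iic i]
          congr 1
          ext x
          simp
        omega
    rw [rows]
    simp only [key]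
    have hle : mu i ≤ ∑ i, mu i := Finset.single_le_sum (f := mu) (fun _ _ => Nat.zero_le _)
      (Finset.mem_univ i)
    rw [Fin.card_filter_val_lt]
    exact min_eq_right hle

theorem gtHW : GtHW := by
  classical
  intro m N mu hmu
  obtain ⟨K, l, hl, hrows⟩ := exists_conj mu hmu
  obtain ⟨κ, hκ, T, hcard, hli⟩ := exists_li (K := ℂ) hl N
  rw [hrows] at hcard
  have hsum : (∑ c, (fun i : Fin m => if (i : ℕ) < l c then 1 else 0)) = mu := by
    rw [← hrows]
    funext i
    rw [Finset.sum_apply, rows, Finset.card_filter]
  have hmem : ∀ k, prodM ℂ hl (T k) ∈ HW m (Fin N) mu := by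
    intro k
    have h1 := HW_prod Finset.univ (fun c => fun i : Fin m => if (i : ℕ) < l c then 1 else 0) _
      (fun c _ => mnr_mem (hl c) (T k c))
    rw [hsum] at h1
    exact h1
  have hli2 : LinearIndependent ℂ (fun k => (⟨prodM ℂ hl (T k), hmem k⟩ : HW m (Fin N) mu)) := by
    refine LinearIndependent.of_comp (HW m (Fin N) mu).subtype ?_
    exact hli
  have := hli2.fintype_card_le_finrank
  rw [hcard] at this
  exact this

end Vale.Agent.P181.TRT.H421
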