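import Vale.Agent.P181.TRT.Defs
import Vale.Agent.P181.PL10.Lin

set_option autoImplicit false

/-!
# P181, TRT: (TR14), the final form
-/

namespace Vale.Agent.P181.TRT.H421

open Vale.Agent.P181.H280 (plethMult)
open Vale.Agent.P181.PL (dn PolyS)
open Vale.Agent.P181.PL10 (trimQ ev)

theorem fin_of (hC : CoreT) (hP : PolyS) : FinT := by
  intro C₀ c₀ hC₀ hc₀
  obtain ⟨C₁, c₁, hC₁, hpoly⟩ := hP
  obtain ⟨d, hd⟩ : ∃ d : ℕ, d = ⌈c₀⌉₊ + c₁ + 1 := ⟨_, rfl⟩
  obtain ⟨K, hK⟩ : ∃ K : ℝ, K = C₀ + C₁ + 10 ^ 6 := ⟨_, rfl⟩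
  have hK6 : (10 : ℝ) ^ 6 ≤ K := by rw [hK]; linarith
  have hK1 : (1 : ℝ) ≤ K := le_trans (by norm_num) hK6
  have hK0 : 0 < K := by linarith
  obtain ⟨A0, hA0⟩ := ev (2 * K) (by linarith) d 100
  refine ⟨1000 + C₁ * (1 + Real.log A0) ^ c₁, ?_, ?_⟩
  · have : 0 ≤ Real.log A0 := Real.log_natCast_nonneg A0
    positivity
  intro a b n lam _ _ hCab h32 hsq hdd
  have hlog : 0 ≤ Real.log a := Real.log_natCast_nonneg a
  have hlog0 : 0 ≤ Real.log A0 := Real.log_natCast_nonneg A0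
  have hL1 : (1 : ℝ) ≤ 1 + Real.log a := by linarith
  have ha0 : (0 : ℝ) ≤ a := Nat.cast_nonneg a
  rcases lt_or_ge a A0 with ha | ha
  · -- small `a`
    refine hpoly a b ?_ n lam
    refine le_trans ?_ hCab
    rcases Nat.eq_zero_or_pos a with h0 | h0
    · subst h0
      simp
    have h1 : Real.log a ≤ Real.log A0 := by
      apply Real.log_le_log (by exact_mod_cast h0)
      exact_mod_cast ha.le
    have h2 : (1 + Real.log a) ^ c₁ ≤ (1 + Real.log A0) ^ c₁ :=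
      pow_le_pow_left₀ (by linarith) (by linarith) _
    have h3 : C₁ * (1 + Real.log a) ^ c₁ ≤ C₁ * (1 + Real.log A0) ^ c₁ :=
      mul_le_mul_of_nonneg_left h2 hC₁.le
    have h4 : C₁ * (1 + Real.log a) ^ c₁ * a ≤ (1000 + C₁ * (1 + Real.log A0) ^ c₁) * a :=
      mul_le_mul_of_nonneg_right (by linarith) ha0
    calc C₁ * a * (1 + Real.log a) ^ c₁ = C₁ * (1 + Real.log a) ^ c₁ * a := by ring
      _ ≤ _ := h4
  -- the parameter `X`
  obtain ⟨X, hX⟩ : ∃ X : ℕ, X = ⌈K * (1 + Real.log a) ^ d⌉₊ := ⟨_, rfl⟩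
  have hXlo : K * (1 + Real.log a) ^ d ≤ X := by
    rw [hX]
    exact Nat.le_ceil _
  have hLd : (1 : ℝ) ≤ (1 + Real.log a) ^ d := one_le_pow₀ hL1
  have hXhi : (X : ℝ) ≤ 2 * K * (1 + Real.log a) ^ d := by
    have h1 := Nat.ceil_lt_add_one (show 0 ≤ K * (1 + Real.log a) ^ d by positivity)
    rw [hX]
    have h2 : 1 ≤ K * (1 + Real.log a) ^ d := by
      calc (1 : ℝ) = 1 * 1 := by ring
        _ ≤ K * (1 + Real.log a) ^ d := mul_le_mul hK1 hLd (by norm_num) hK0.le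
    linarith
  have hX100 : X ^ 100 ≤ a := by
    have h1 : (X : ℝ) ^ 100 ≤ (2 * K * (1 + Real.log a) ^ d) ^ 100 :=
      pow_le_pow_left₀ (Nat.cast_nonneg _) hXhi _
    have h2 := h1.trans (hA0 a ha)
    rw [← Nat.cast_pow] at h2
    exact Nat.cast_le.1 h2
  -- the powers of the logarithm below `X`
  have hpow1 : C₁ * (1 + Real.log a) ^ c₁ ≤ X := by
    refine le_trans ?_ hXlo
    refine mul_le_mul ?_ (pow_le_pow_right₀ hL1 (by omega)) (by positivity) hK0.le
    rw [hK]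
    linarith
  have hpow2 : 10 ^ 6 * (1 + Real.log a) ≤ X := by
    refine le_trans ?_ hXlo
    refine mul_le_mul hK6 ?_ (by linarith) hK0.le
    calc 1 + Real.log a = (1 + Real.log a) ^ 1 := (pow_one _).symm
      _ ≤ (1 + Real.log a) ^ d := pow_le_pow_right₀ hL1 (by omega)
  have hpow0 : C₀ * (1 + Real.log a) ^ c₀ ≤ X := by
    refine le_trans ?_ hXlo
    refine mul_le_mul ?_ ?_ (by positivity) hK0.le
    · rw [hK]
      linarith
    · rw [← Real.rpow_natCast]
      apply Real.rpow_le_rpow_of_exponent_le hL1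
      calc c₀ ≤ (⌈c₀⌉₊ : ℝ) := Nat.le_ceil _
        _ ≤ (d : ℝ) := by
          rw [hd]
          push_cast
          have : (0 : ℝ) ≤ (c₁ : ℝ) := Nat.cast_nonneg _
          linarith
  rcases lt_or_ge (X * a) b with hb | hb
  · refine hpoly a b ?_ n lam
    have h1 : (X : ℝ) * a ≤ b := by exact_mod_cast hb.le
    calc C₁ * a * (1 + Real.log a) ^ c₁ = C₁ * (1 + Real.log a) ^ c₁ * a := by ring
      _ ≤ X * a := mul_le_mul_of_nonneg_right hpow1 ha0
      _ ≤ b := h1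
  refine trimQ lam fun k mu hanti hsum hpos hka hdn => ?_
  have hb1000 : 1000 * a ≤ b := by
    have h1 : (1000 : ℝ) * a ≤ b := by
      refine le_trans ?_ hCab
      apply mul_le_mul_of_nonneg_right _ ha0
      have : 0 ≤ C₁ * (1 + Real.log A0) ^ c₁ := by positivity
      linarith
    exact_mod_cast h1
  have hXpos : 0 < X := by
    have h1 : (0 : ℝ) < X := lt_of_lt_of_le (by linarith) hpow2
    exact_mod_cast h1
  have hapos : 0 < a := lt_of_lt_of_le (pow_pos hXpos _) hX100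
  cases k with
  | zero =>
    exfalso
    rw [Finset.univ_eq_empty, Finset.sum_empty] at hsum
    have : 0 < a * b := Nat.mul_pos hapos (by omega)
    omega
  | succ m =>
    have hw : a ^ 2 ≤ X * dn mu 1 := by
      rw [hdn]
      have h1 : (a : ℝ) ^ 2 ≤ X * dn lam 1 :=
        hsq.trans (mul_le_mul_of_nonneg_right hpow0 (Nat.cast_nonneg _))
      exact_mod_cast h1
    have hw2 : dn mu 1 ≤ X * dn mu 2 := by
      rw [hdn, hdn]
      have h1 : (dn lam 1 : ℝ) ≤ X * dn lam 2 :=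
        hdd.trans (mul_le_mul_of_nonneg_right hpow0 (Nat.cast_nonneg _))
      exact_mod_cast h1
    have h32' : 32 * dn mu 1 ≤ a * b := by
      rw [hdn]
      exact h32
    exact hC a b m X mu ⟨hanti, hsum, hka, hb1000, by linarith, h32', hw, hw2, hX100, hpow2⟩

end Vale.Agent.P181.TRT.H421
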